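import Vale.Agent.P352X.R.KD.A

/-!
# P352X, row KD: pairs of forward cut cones are in the domain of `K`
-/

set_option linter.all false

noncomputable section

open Filter Topology Complex
open UniformSpace (Completion)

namespace Vale.Agent.P352X.KDa

open Vale.Agent.P352 Vale.Agent.P352.GF Vale.Agent.P352.BW Vale.Agent.P352.H496

section hilbert

variable {H : Type*} [NormedAddCommGroup H] [InnerProductSpace ℂ H] [CompleteSpace H]
  {W : ℝ → H →L[ℂ] H}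

lemma norm_uni {u : H →L[ℂ] H} (hu : u ∈ unitary (H →L[ℂ] H)) (z : H) : ‖u z‖ = ‖z‖ :=
  ContinuousLinearMap.norm_map_of_mem_unitary hu z

lemma UG.star_eq (hW : UG W) {t : ℝ} (hu : W t ∈ unitary (H →L[ℂ] H)) : star (W t) = W (-t) := by
  have h1 : W t * W (-t) = 1 := by rw [← hW.add, add_neg_cancel, hW.zero]
  calc star (W t) = star (W t) * (W t * W (-t)) := by rw [h1, mul_one]
    _ = W (-t) := by rw [← mul_assoc, hu.1, one_mul]

lemma gn_scale {ψ k : H} (h : Gn W ψ k) (a : ℝ) :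
    HasDerivAt (fun t => W (a * t) ψ) (a • I • k) 0 := by
  have h2 : HasDerivAt (fun s : ℝ => a * s) a 0 := by simpa using (hasDerivAt_id (0 : ℝ)).const_mul a
  exact HasDerivAt.scomp_of_eq (𝕜 := ℝ) (𝕜' := ℝ) 0 h h2 (by simp)

end hilbert

variable {D : Type*} [NormedAddCommGroup D] [InnerProductSpace ℂ D] {c : Ctx D}

lemma ugS (g : GRP c) : UG c.SK :=
  ⟨c.hS.zero va g.na, fun s t => c.hS.add va s t g.na, fun t => norm_uni (g.S_uni va t g.na),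
    fun z => c.hS.cont va z g.na⟩

lemma bo_eq (c : Ctx D) (s : ℝ) : Bo c.Q s = c.E.U (-s / (2 * Real.pi)) := by
  ext z
  rw [c.bw]
  congr 2
  field_simp

lemma ugB (c : Ctx D) : UG (Bo c.Q) := by
  refine ⟨?_, fun s t => ?_, fun t z => ?_, fun z => ?_⟩
  · rw [bo_eq]; simp
  · rw [bo_eq, bo_eq, bo_eq, ← c.E.U_add]
    congr 1
    ring
  · rw [bo_eq, c.E.norm_U]
  · simp only [bo_eq]
    exact (c.E.continuous_U_apply z).comp (by fun_prop)

lemma rc_sub (g : GRP c) {r r' : ℝ} (h0 : 0 ≤ r') (h : r' ≤ r) (y : V) : Rc r y ⊆ Rc r' y :=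
  fun _ hz => HM.H584.Rg_mono g.na g.nb g.nab h0 h hz

lemma rc_mono (g : GRP c) {r r' : ℝ} (h0 : 0 ≤ r') (h : r' ≤ r) {ψ ψ' : Completion D}
    (hp : Pr (c.N (Rc r 0)) c.Om ψ ψ') : Pr (c.N (Rc r' 0)) c.Om ψ ψ' :=
  pr_mono (c.hN.mono _ _ (rc_sub g h0 h 0)) hp

lemma rc_zero : Rc 0 0 = Wdg va vb 0 := by
  rw [← HM.H584.Rg_zero]
  ext z
  simp [Rc]

/-- pairs in the domain of the boosts are in the domain of `K` -/
theorem dom (g : GRP c) {r : ℝ} (hr : 0 < r) {ψ ψ' : Completion D}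
    (hp : Pr (c.N (Rc r 0)) c.Om ψ ψ') (hB : Dm (Bo c.Q) ψ) : Dm c.SK ψ := by
  obtain ⟨E', hE'⟩ := g.md r hr.le
  have h0 : HasDerivAt (fun t : ℝ => c.E.U t ψ) ((-(2 * Real.pi)) • I • gen (Bo c.Q) ψ) 0 := by
    simpa only [c.bw, neg_mul] using gn_scale hB.gn' (-(2 * Real.pi))
  obtain ⟨k', hk'⟩ := Dom.der c.E E' (c.hN.mono _ _ (rc_zero ▸ rc_sub g le_rfl hr.le 0)) h0
    (pr_kms E' hp)
  have hφ := JB.prod_der (fun t => E'.U t) (fun t z => (E'.norm_U t z).le)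
    (fun z => E'.continuous_U_apply z) E'.U_zero (w := k') (gn_scale hB.gn' (2 * Real.pi)) (by
      simpa only [mul_zero, (ugB c).zero, ContinuousLinearMap.one_apply] using hk')
  have hφ' := HasDerivAt.scomp_of_eq (𝕜 := ℝ) (𝕜' := ℝ) 0 hφ (Dom.tau_der hr) (by simp)
  refine (hφ'.congr_of_eventuallyEq ?_).differentiableAt
  filter_upwards [Iio_mem_nhds hr] with s hs
  have e2 : -(2 * Real.pi * (-(Real.log (1 - s / r)) / (2 * Real.pi))) = Real.log (1 - s / r) := by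
    field_simp
  have e3 : s / r < 1 := (div_lt_one hr).2 hs
  have e1 : r * (1 - Real.exp (Real.log (1 - s / r))) = s := by
    rw [Real.exp_log (by linarith)]
    field_simp
    ring
  simp only [Function.comp_apply, hE', ContinuousLinearMap.mul_apply]
  have e4 := (ugB c).neg_apply (-(2 * Real.pi * (-(Real.log (1 - s / r)) / (2 * Real.pi)))) ψ
  rw [neg_neg] at e4
  rw [e4, e2, e1]

theorem kd_a (g : GRP c) {r : ℝ} (hr : 0 < r) : ∃ C : ℝ, 0 ≤ C ∧ ∀ ψ ψ' β,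
    Pr (c.N (Rc r 0)) c.Om ψ ψ' → Gn (Bo c.Q) ψ β →
      Dm c.SK ψ ∧ ‖gen c.SK ψ‖ ≤ C * (‖ψ‖ + ‖ψ'‖ + ‖β‖) := by
  let G : Submodule ℝ (Completion D × Completion D × Completion D) :=
    { carrier := {p | Pr (c.N (Rc r 0)) c.Om p.1 p.2.1 ∧ Gn (Bo c.Q) p.1 p.2.2}
      add_mem' := fun h h' => ⟨pr_add h.1 h'.1, gn_add h.2 h'.2⟩
      zero_mem' := ⟨pr_zero, gn_zero⟩
      smul_mem' := fun a _ h => ⟨pr_smul a h.1, gn_rsmul a h.2⟩ }
  let R : Submodule ℝ ((Completion D × Completion D × Completion D) × Completion D) :=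
    { carrier := {p | Gn c.SK p.1.1 p.2}
      add_mem' := fun h h' => gn_add h h'
      zero_mem' := gn_zero
      smul_mem' := fun a _ h => gn_rsmul a h }
  obtain ⟨C, hC, hb⟩ := cg G R
    ((pr_closed.preimage (f := fun p : Completion D × Completion D × Completion D => (p.1, p.2.1))
      (by fun_prop)).inter ((ugB c).closed.preimage
        (f := fun p : Completion D × Completion D × Completion D => (p.1, p.2.2)) (by fun_prop)))
    ((ugS g).closed.preimage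
      (f := fun p : (Completion D × Completion D × Completion D) × Completion D => (p.1.1, p.2))
      (by fun_prop))
    fun x hx => ⟨_, (dom g hr hx.1 hx.2.dm').gn'⟩
  refine ⟨C, hC, fun ψ ψ' β hp hB => ?_⟩
  obtain ⟨y, hy, h1⟩ := hb (ψ, ψ', β) ⟨hp, hB⟩
  have hy' : Gn c.SK ψ y := hy
  refine ⟨hy'.dm', ?_⟩
  rw [hy'.gen_eq']
  refine h1.trans (mul_le_mul_of_nonneg_left ?_ hC)
  have := norm_nonneg ψ
  have := norm_nonneg ψ'
  have := norm_nonneg β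
  simp only [Prod.norm_def, max_le_iff]
  refine ⟨by linarith, by linarith, by linarith⟩

theorem kd_b (g : GRP c) {r r' : ℝ} {ψ ψ' : Completion D} (hr : 0 ≤ r) (hr' : 0 ≤ r')
    (hp : Pr (c.N (Rc r 0)) c.Om ψ ψ') :
    Pr (c.N (Rc r' 0)) c.Om (c.SK (r' - r) ψ) (c.SK (r' - r) ψ') := by
  refine pr_map (g.S_uni va _ g.na) (c.hS.vac va _ g.na) (fun X hX => ?_) hp
  rw [(ugS g).star_eq (g.S_uni va _ g.na), neg_sub]
  exact (g.geo r r' X hr hr').1 hX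

/-- the boosts move the cut cones -/
theorem pr_bo (g : GRP c) {r : ℝ} {ψ ψ' : Completion D} (hr : 0 ≤ r)
    (hp : Pr (c.N (Rc r 0)) c.Om ψ ψ') (t : ℝ) :
    Pr (c.N (Rc (r * Real.exp t) 0)) c.Om (Bo c.Q t ψ) (Bo c.Q t ψ') := by
  obtain ⟨E', hE'⟩ := g.md r hr
  have h1 : Pr (c.N (Rc r 0)) c.Om (E'.U (-t / (2 * Real.pi)) ψ) (E'.U (-t / (2 * Real.pi)) ψ') := by
    refine pr_map ⟨?_, ?_⟩ (E'.U_xi _) (fun X hX => ?_) hp
    · rw [E'.star_U, E'.U_neg_mul_U]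
    · rw [E'.star_U, E'.U_mul_U_neg]
    · rw [E'.star_U]
      exact E'.sg_mem hX _
  have h2 := kd_b g hr (mul_nonneg hr (Real.exp_pos t).le) h1
  have e : -(2 * Real.pi * (-t / (2 * Real.pi))) = t := by field_simp
  have e2 : ∀ z, c.SK (r * Real.exp t - r) (c.SK (r * (1 - Real.exp t)) z) = z := fun z => by
    have := (ugS g).neg_apply (r * Real.exp t - r) z
    rwa [show -(r * Real.exp t - r) = r * (1 - Real.exp t) by ring] at this
  simpa only [hE', e, ContinuousLinearMap.mul_apply, e2] using h2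

lemma ev_bo (g : GRP c) {r r' : ℝ} {ψ ψ' : Completion D} (h0 : 0 ≤ r') (h : r' < r)
    (hp : Pr (c.N (Rc r 0)) c.Om ψ ψ') :
    ∀ᶠ t in 𝓝 (0 : ℝ), Pr (c.N (Rc r' 0)) c.Om (Bo c.Q t ψ) (Bo c.Q t ψ') := by
  have h1 : Tendsto (fun t => r * Real.exp t) (𝓝 0) (𝓝 r) := by
    simpa using (Real.continuous_exp.tendsto 0).const_mul r
  filter_upwards [h1.eventually (lt_mem_nhds h)] with t ht
  exact rc_mono g h0 ht.le (pr_bo g (h0.trans h.le) hp t)

theorem pr_genB (g : GRP c) {r r' : ℝ} {ψ ψ' β β' : Completion D} (h0 : 0 ≤ r') (h : r' < r)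
    (hp : Pr (c.N (Rc r 0)) c.Om ψ ψ') (hB : Gn (Bo c.Q) ψ β) (hB' : Gn (Bo c.Q) ψ' β') :
    Pr (c.N (Rc r' 0)) c.Om (I • β) (I • β') := pr_der (ev_bo g h0 h hp) hB hB'

theorem pr_genK (g : GRP c) {r r' : ℝ} {ψ ψ' k k' : Completion D} (h0 : 0 ≤ r') (h : r' < r)
    (hp : Pr (c.N (Rc r 0)) c.Om ψ ψ') (hK : Gn c.SK ψ k) (hK' : Gn c.SK ψ' k') :
    Pr (c.N (Rc r' 0)) c.Om (I • k) (I • k') := by
  refine pr_der ?_ hK hK'
  filter_upwards [Ioi_mem_nhds (show r' - r < 0 by linarith)] with t ht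
  have ht' : r' ≤ r + t := by linarith [Set.mem_Ioi.1 ht]
  have := kd_b g (h0.trans h.le) (h0.trans ht') hp
  rw [add_sub_cancel_left] at this
  exact rc_mono g h0 ht' this

/-- `K` on boosted vectors -/
lemma gn_K_bo (g : GRP c) {ψ k : Completion D} (hK : Gn c.SK ψ k) (t : ℝ) :
    Gn c.SK (Bo c.Q t ψ) (Real.exp (-t) • Bo c.Q t k) := by
  have h1 := ((Bo c.Q t).restrictScalars ℝ).hasFDerivAt.comp_hasDerivAt (0 : ℝ)
    (gn_scale hK (Real.exp (-t)))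
  have e : (fun u => c.SK u (Bo c.Q t ψ)) =
      ((Bo c.Q t).restrictScalars ℝ) ∘ fun u => c.SK (Real.exp (-t) * u) ψ := by
    funext u
    have := congrArg (fun B : Completion D →L[ℂ] Completion D => B ψ)
      (g.sc_S (Real.exp t) (Real.exp (-t)) (Real.exp (-t) * u) (Real.exp_pos _) (Real.exp_pos _))
    rw [mul_div_cancel_left₀ u (Real.exp_pos _).ne'] at this
    exact this.symm
  rw [Gn, e, smul_comm, ← map_smul]
  rw [map_smul] at h1
  exact h1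

theorem gn_B_K (g : GRP c) {r : ℝ} {ψ ψ' β β' γ : Completion D} (hr : 0 < r)
    (hp : Pr (c.N (Rc r 0)) c.Om ψ ψ') (hB : Gn (Bo c.Q) ψ β) (hB' : Gn (Bo c.Q) ψ' β')
    (hBB : Gn (Bo c.Q) β γ) :
    Dm c.SK β ∧ Gn (Bo c.Q) (gen c.SK ψ) (gen c.SK β - I • gen c.SK ψ) := by
  have hr2 : 0 < r / 2 := by positivity
  have hlt : r / 2 < r := by linarith
  obtain ⟨C, hC, hb⟩ := kd_a g hr2
  have hK := (dom g hr hp hB.dm').gn'
  have hp1 := pr_genB g hr2.le hlt hp hB hB'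
  have hKβ : Dm c.SK β := by
    have := gn_smul (-I) (dom g hr2 hp1 (gn_smul I hBB).dm').gn'
    rw [smul_smul] at this
    simpa using this.dm'
  refine ⟨hKβ, ?_⟩
  set k := gen c.SK ψ
  set κ := gen c.SK β
  have h1 : HasDerivAt (fun t => Real.exp (-t) • Bo c.Q t k) (I • κ) 0 := by
    rw [hasDerivAt_iff_tendsto_slope_zero, tendsto_iff_norm_sub_tendsto_zero]
    have a1 := tendsto_iff_norm_sub_tendsto_zero.1 (gn_slope (ugB c) hB)
    have a2 := tendsto_iff_norm_sub_tendsto_zero.1 (gn_slope (ugB c) hB')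
    have a3 := tendsto_iff_norm_sub_tendsto_zero.1 (gn_slope (ugB c) hBB)
    have a4 := ((a1.add a2).add a3).const_mul C
    simp only [add_zero, mul_zero] at a4
    refine squeeze_zero' (Eventually.of_forall fun _ => norm_nonneg _) ?_ a4
    filter_upwards [(ev_bo g hr2.le hlt hp).filter_mono nhdsWithin_le_nhds] with t ht
    have b1 := (hb _ _ _ (pr_sub (pr_smul t⁻¹ (pr_sub ht (rc_mono g hr2.le hlt.le hp))) hp1)
      (gn_sub (gn_rsmul t⁻¹ (gn_sub ((ugB c).gn hB t) hB)) (gn_smul I hBB))).2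
    rw [(gn_sub (gn_rsmul t⁻¹ (gn_sub (gn_K_bo g hK t) hK)) (gn_smul I hKβ.gn')).gen_eq'] at b1
    simpa only [zero_add, neg_zero, Real.exp_zero, one_smul, (ugB c).zero,
      ContinuousLinearMap.one_apply] using b1
  have h2 := (Real.hasDerivAt_exp 0).fun_smul h1
  simp only [smul_smul, ← Real.exp_add, add_neg_cancel, Real.exp_zero, one_smul, neg_zero,
    (ugB c).zero, ContinuousLinearMap.one_apply, add_zero] at h2
  rw [Gn, smul_sub, smul_smul I I, I_mul_I, neg_smul, one_smul, sub_neg_eq_add]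
  exact h2

/-- the bound for `K ^ 2` -/
theorem kd_two (g : GRP c) {r : ℝ} (hr : 0 < r) : ∃ C : ℝ, 0 ≤ C ∧ ∀ ψ ψ' β β' γ,
    Pr (c.N (Rc r 0)) c.Om ψ ψ' → Gn (Bo c.Q) ψ β → Gn (Bo c.Q) ψ' β' → Gn (Bo c.Q) β γ →
      Dm c.SK ψ ∧ Dm c.SK (gen c.SK ψ) ∧
      ‖gen c.SK ψ‖ ≤ C * (‖ψ‖ + ‖ψ'‖ + ‖β‖ + ‖β'‖ + ‖γ‖) ∧
      ‖gen c.SK (gen c.SK ψ)‖ ≤ C * (‖ψ‖ + ‖ψ'‖ + ‖β‖ + ‖β'‖ + ‖γ‖) := by
  have hr2 : 0 < r / 2 := by positivity
  have hlt : r / 2 < r := by linarith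
  obtain ⟨C, hC, hb⟩ := kd_a g hr2
  refine ⟨C + 4 * C ^ 2, by positivity, fun ψ ψ' β β' γ hp hB hB' hBB => ?_⟩
  have hp0 := rc_mono g hr2.le hlt.le hp
  obtain ⟨d1, b1⟩ := hb _ _ _ hp0 hB
  obtain ⟨d2, b2⟩ := hb _ _ _ (pr_symm hp0) hB'
  obtain ⟨d3, g3⟩ := gn_B_K g hr hp hB hB' hBB
  have b3 := (hb _ _ _ (pr_genB g hr2.le hlt hp hB hB') (gn_smul I hBB)).2
  obtain ⟨d4, b4⟩ := hb _ _ _ (pr_genK g hr2.le hlt hp d1.gn' d2.gn') (gn_smul I g3)
  have d5 : Dm c.SK (gen c.SK ψ) := by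
    have := gn_smul (-I) d4.gn'
    rw [smul_smul] at this
    simpa using this.dm'
  rw [(gn_smul I d3.gn').gen_eq'] at b3
  rw [(gn_smul I d5.gn').gen_eq'] at b4
  have b5 := norm_sub_le (gen c.SK β) (I • gen c.SK ψ)
  simp only [norm_smul, norm_I, one_mul] at b3 b4 b5
  have := norm_nonneg ψ
  have := norm_nonneg ψ'
  have := norm_nonneg β
  have := norm_nonneg β'
  have := norm_nonneg γ
  set S := ‖ψ‖ + ‖ψ'‖ + ‖β‖ + ‖β'‖ + ‖γ‖ with hS
  have hS0 : 0 ≤ S := by positivity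
  have c1 : ‖gen c.SK ψ‖ ≤ C * S := b1.trans (mul_le_mul_of_nonneg_left (by linarith) hC)
  have c2 : ‖gen c.SK ψ'‖ ≤ C * S := b2.trans (mul_le_mul_of_nonneg_left (by linarith) hC)
  have c3 : ‖gen c.SK β‖ ≤ C * S := b3.trans (mul_le_mul_of_nonneg_left (by linarith) hC)
  have c4 : ‖gen c.SK (gen c.SK ψ)‖ ≤ C * (4 * (C * S)) :=
    b4.trans (mul_le_mul_of_nonneg_left (by linarith) hC)
  have c5 : 0 ≤ C ^ 2 * S := by positivity
  have c6 : 0 ≤ C * S := by positivity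
  exact ⟨d1, d5, by nlinarith, by nlinarith⟩

end Vale.Agent.P352X.KDa

end
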