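import Vale.Agent.P352X.ST.Syn
import Mathlib.Analysis.PSeries

/-!
# P352X, row KD: decomposition of Schwartz functions into pieces with compact support
-/

set_option linter.all false

noncomputable section

open Filter Topology Metric
open scoped SchwartzMap ContDiff

namespace Vale.Agent.P352X.KDa

open ST

variable (E : Type*) [NormedAddCommGroup E] [NormedSpace ℝ E] [FiniteDimensional ℝ E]

theorem exists_chi : ∃ χ : ℕ → E → ℂ, χ 0 = 0 ∧ (∀ m, ∃ A, ∀ n, Bd (fun _ => A) m (χ n)) ∧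
    (∀ n : ℕ, ∀ z, ‖z‖ ≤ n → n ≠ 0 → χ n z = 1) ∧ ∀ n : ℕ, ∀ z, 2 * n ≤ ‖z‖ → χ n z = 0 := by
  haveI := FiniteDimensional.proper ℝ E
  let b : ContDiffBump (0 : E) := ⟨1, 2, one_pos, one_lt_two⟩
  have hb : ContDiff ℝ ∞ fun z => (b z : ℂ) := Complex.ofRealCLM.contDiff.comp b.contDiff
  have hc : HasCompactSupport fun z => (b z : ℂ) :=
    b.hasCompactSupport.comp_left (g := fun x : ℝ => (x : ℂ)) (by simp)
  let L : ℕ → E →L[ℝ] E := fun n => (n : ℝ)⁻¹ • ContinuousLinearMap.id ℝ E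
  have hL : ∀ n z, ‖L n z‖ = ‖z‖ / n := fun n z => by
    simp [L, norm_smul, div_eq_inv_mul]
  refine ⟨fun n z => if n = 0 then 0 else b (L n z), by ext; simp, fun m => ?_,
    fun n z hz hn => ?_, fun n z hz => ?_⟩
  · refine ⟨2 ^ m * sn E ℂ m (hc.toSchwartzMap hb), fun n => ?_⟩
    by_cases hn : n = 0
    · simp only [hn, if_true]
      exact (Bd.const (0 : ℂ) m).mono fun _ => by rw [norm_zero]; positivity
    · simp only [hn, if_false]
      have h1 : ‖L n‖ ≤ 1 := ContinuousLinearMap.opNorm_le_bound _ zero_le_one fun z => by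
        rw [hL, one_mul]
        exact div_le_self (norm_nonneg _) (by exact_mod_cast Nat.one_le_iff_ne_zero.2 hn)
      simpa using (bd_sch (hc.toSchwartzMap hb) (Nat.zero_le m) le_rfl).comp (L n) le_rfl h1
  · have : (0 : ℝ) < n := by positivity
    beta_reduce
    rw [if_neg hn, b.one_of_mem_closedBall, Complex.ofReal_one]
    rw [mem_closedBall_zero_iff, hL]
    exact (div_le_one this).2 hz
  · by_cases hn : n = 0
    · simp [hn]
    · have : (0 : ℝ) < n := by positivity
      beta_reduce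
      rw [if_neg hn, b.zero_of_le_dist, Complex.ofReal_zero]
      rw [dist_zero_right, hL]
      exact (le_div_iff₀ this).2 hz

/-- **decomposition** into pieces supported in balls, with rapidly decreasing norms -/
theorem exists_dec : ∃ w : ℕ → 𝓢(E, ℂ) →L[ℂ] 𝓢(E, ℂ),
    (∀ n f, tsupport (w n f) ⊆ tsupport f ∩ closedBall 0 (2 * (n + 1))) ∧
    (∀ f, Tendsto (fun n => ∑ i ∈ Finset.range n, w i f) atTop (𝓝 f)) ∧
    ∀ m N, ∃ C : ℝ, 0 ≤ C ∧ ∀ n f, sn E ℂ m (w n f) ≤ C / (n + 1) ^ N * sn E ℂ (m + N) f := by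
  haveI := FiniteDimensional.proper ℝ E
  obtain ⟨χ, h0, hb, h1, h2⟩ := exists_chi E
  have ht : ∀ n, (χ n).HasTemperateGrowth := fun n => temperate_of_bd fun m =>
    (hb m).elim fun A hA => ⟨0, A, by simpa using hA n⟩
  have ht2 : ∀ n, (χ (n + 1) - χ n).HasTemperateGrowth := fun n => (ht _).sub (ht _)
  refine ⟨fun n => SchwartzMap.smulLeftCLM ℂ (χ (n + 1) - χ n), fun n f => ?_, fun f => ?_,
    fun m N => ?_⟩
  · refine (SchwartzMap.tsupport_smulLeftCLM_subset _ _).trans (Set.inter_subset_inter_right _ ?_)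
    refine closure_minimal (fun z hz => ?_) isClosed_closedBall
    by_contra h
    rw [mem_closedBall_zero_iff, not_le] at h
    refine hz ?_
    rw [Pi.sub_apply, h2 (n + 1) z (by push_cast; linarith), h2 n z (by linarith), sub_zero]
  · have e : ∀ n, ∑ i ∈ Finset.range n, SchwartzMap.smulLeftCLM ℂ (χ (i + 1) - χ i) f =
        SchwartzMap.smulLeftCLM ℂ (χ n) f := fun n => by
      simp only [SchwartzMap.smulLeftCLM_sub (ht _) (ht _), ContinuousLinearMap.sub_apply]
      rw [Finset.sum_range_sub (fun i => SchwartzMap.smulLeftCLM ℂ (χ i) f)]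
      ext z
      rw [SchwartzMap.sub_apply, SchwartzMap.smulLeftCLM_apply_apply (ht 0), h0]
      simp
    simp only [e]
    refine tendsto_of_sn (fun N => ?_) fun z => ?_
    · obtain ⟨A, hA⟩ := hb N
      exact ⟨_, Eventually.of_forall fun n => sn_mul (l := 0) (A := A) (by simpa using hA n) f _
        (SchwartzMap.smulLeftCLM_apply_apply (ht n) f)⟩
    · refine tendsto_const_nhds.congr' ?_
      filter_upwards [tendsto_natCast_atTop_atTop.eventually_ge_atTop ‖z‖, eventually_ne_atTop 0]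
        with n hn hn'
      rw [SchwartzMap.smulLeftCLM_apply_apply (ht n), h1 n z hn hn', one_smul]
  · obtain ⟨A, hA⟩ := hb m
    have hA0 : 0 ≤ A := (hA 0).nonneg 0
    refine ⟨2 ^ m * 2 ^ (m + N) * (A + A), by positivity, fun n f => ?_⟩
    have hd := (hA (n + 1)).sub (hA n)
    have hn : (0 : ℝ) < n + 1 := by positivity
    refine (sn_mul (l := N) (A := (A + A) / (n + 1) ^ N) (u := χ (n + 1) - χ n)
      ⟨hd.1, fun i hi z => ?_⟩ f _ (SchwartzMap.smulLeftCLM_apply_apply (ht2 n) f)).trans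
      (le_of_eq (by ring))
    rcases lt_or_ge ‖z‖ n with hz | hz
    · have e : (χ (n + 1) - χ n) =ᶠ[𝓝 z] fun _ => 0 := by
        filter_upwards [continuous_norm.continuousAt.eventually (gt_mem_nhds hz)] with x hx
        have hn0 : n ≠ 0 := by
          rintro rfl
          exact absurd hx (by simpa using norm_nonneg x)
        rw [Pi.sub_apply, h1 (n + 1) x (by push_cast; linarith) n.succ_ne_zero, h1 n x hx.le hn0,
          sub_self]
      rw [(e.iteratedFDeriv ℝ i).eq_of_nhds, iteratedFDeriv_fun_zero, Pi.zero_apply, norm_zero]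
      positivity
    · refine (hd.2 i hi z).trans ?_
      beta_reduce
      rw [div_mul_eq_mul_div, le_div_iff₀ (by positivity)]
      exact mul_le_mul_of_nonneg_left (pow_le_pow_left₀ hn.le (by linarith) _) (by positivity)

/-- **extension** of a bound for a closed relation from compact supports to Schwartz functions -/
theorem ext_rel (m M : ℕ) : ∃ C0 : ℝ, 0 ≤ C0 ∧ ∀ {H G : Type*} [NormedAddCommGroup H]
    [NormedSpace ℂ H] [NormedAddCommGroup G] [CompleteSpace G] (P : AddSubmonoid (H × G))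
    (τ : 𝓢(E, ℂ) →L[ℂ] H) (S : Set E) (C : ℝ), IsClosed (P : Set (H × G)) → 0 ≤ C →
    (∀ (R : ℝ) (f : 𝓢(E, ℂ)), 1 ≤ R → tsupport f ⊆ S ∩ closedBall 0 R →
      ∃ y, (τ f, y) ∈ P ∧ ‖y‖ ≤ C * R ^ M * sn E ℂ m f) →
    ∀ f : 𝓢(E, ℂ), tsupport f ⊆ S →
      ∃ y, (τ f, y) ∈ P ∧ ‖y‖ ≤ C0 * C * sn E ℂ (m + (M + 2)) f := by
  obtain ⟨w, h1, h2, h3⟩ := exists_dec E
  obtain ⟨C1, hC1, h4⟩ := h3 m (M + 2)
  have hs : Summable fun n : ℕ => 1 / ((n : ℝ) + 1) ^ 2 := by
    have := (summable_nat_add_iff 1).2 (Real.summable_one_div_nat_pow.2 one_lt_two)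
    simpa using this
  refine ⟨2 ^ M * C1 * ∑' n : ℕ, 1 / ((n : ℝ) + 1) ^ 2, by positivity, ?_⟩
  intro H G _ _ _ _ P τ S C hP hC h f hf
  choose y hy hb using fun n : ℕ => h (2 * (n + 1)) (w n f)
    (by linarith [(n.cast_nonneg : (0 : ℝ) ≤ n)])
    ((h1 n f).trans (Set.inter_subset_inter_left _ hf))
  have hs2 := hs.hasSum.mul_left (2 ^ M * C1 * C * sn E ℂ (m + (M + 2)) f)
  have hb2 : ∀ n, ‖y n‖ ≤
      2 ^ M * C1 * C * sn E ℂ (m + (M + 2)) f * (1 / ((n : ℝ) + 1) ^ 2) := fun n => by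
    refine (hb n).trans ((mul_le_mul_of_nonneg_left (h4 n f) (by positivity)).trans (le_of_eq ?_))
    rw [mul_pow]
    field_simp
    ring
  have hy2 : Summable y := .of_norm_bounded hs2.summable hb2
  refine ⟨∑' n, y n, ?_, (tsum_of_norm_bounded hs2 hb2).trans (le_of_eq (by ring))⟩
  refine hP.mem_of_tendsto (((τ.continuous.tendsto f).comp (h2 f)).prodMk_nhds
    hy2.hasSum.tendsto_sum_nat) (Eventually.of_forall fun n => ?_)
  have := P.sum_mem (t := Finset.range n) (f := fun i => (τ (w i f), y i)) fun i _ => hy i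
  rw [← prod_mk_sum] at this
  simpa only [Function.comp_apply, map_sum, SetLike.mem_coe] using this

end Vale.Agent.P352X.KDa

end
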