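import Vale.Agent.P352X.R.KD.B
import Vale.Agent.P352X.R.KD.C
import Vale.Agent.P352X.Api1
import Vale.Agent.P352X.Api3a

/-!
# P352X, row KD: operators on test functions, compact supports in cut cones
-/

set_option linter.all false

noncomputable section

open Filter Topology
open Complex (I norm_I)
open scoped SchwartzMap
open UniformSpace (Completion)

namespace Vale.Agent.P352X.KDa

open Vale.Agent.P352 Vale.Agent.P352.GF Vale.Agent.P352.BW Vale.Agent.P352.H496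
open Vale.Agent.P352.H246 (In)

/-- directional derivatives -/
def dS (h : V) : Sch →L[ℂ] Sch := LineDeriv.lineDerivOpCLM ℂ Sch h

lemma pd_ev (m : Ix) (f : Sch) (x : V) : pd m (ev f) x = fderiv ℝ f x (bas m 1) := by
  have h1 : HasDerivAt (fun t : ℝ => x + t • bas m 1) (bas m 1) 0 := by
    simpa using ((hasDerivAt_id (0 : ℝ)).smul_const (bas m 1)).const_add x
  have h2 := (f.differentiableAt (x := x)).hasFDerivAt.comp_hasDerivAt_of_eq (0 : ℝ) h1 (by simp)
  rw [← h2.deriv, pd]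
  congr 1
  funext t
  show f _ = f _
  congr 1
  funext n
  simp [bas]

lemma ev_dS (h : V) (f : Sch) : ev (dS h f) = dv h (ev f) := by
  funext x
  have e : h = ∑ m, h m • bas m 1 := by
    funext n
    simp [bas, Finset.sum_apply]
  show fderiv ℝ f x h = _
  conv_lhs => rw [e]
  simp only [map_sum, map_smul, dv, pd_ev, Complex.real_smul]

/-- multiplication by a linear function -/
def mS (l : V →L[ℝ] ℝ) : Sch →L[ℂ] Sch := SchwartzMap.smulLeftCLM ℂ fun z => (l z : ℂ)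

lemma mS_apply (l : V →L[ℝ] ℝ) (f : Sch) (z : V) : mS l f z = l z * f z :=
  SchwartzMap.smulLeftCLM_apply_apply (Complex.ofRealCLM ∘L l).hasTemperateGrowth f z

/-- the boost vector field -/
def BS : Sch →L[ℂ] Sch := mS alL ∘L dS va - mS beL ∘L dS vb

lemma ev_BS (f : Sch) : ev (BS f) = Bc (ev f) := by
  funext z
  show mS alL (dS va f) z - mS beL (dS vb f) z = _
  rw [mS_apply, mS_apply, Bc, ← ev_dS, ← ev_dS]
  rfl

/-- complex conjugation -/
def barL : Sch →L[ℝ] Sch := SchwartzMap.postcompCLM (Complex.conjCLE : ℂ →L[ℝ] ℂ)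

lemma ev_barL (f : Sch) : ev (barL f) = bar (ev f) := rfl

/-- the boost on vectors -/
def βL : V →L[ℝ] V := alL.smulRight va - beL.smulRight vb

lemma βL_apply (h : V) : βL h = al h • va - be h • vb := rfl

section adm

variable {H : Type*} [NormedAddCommGroup H] {Φ Ψ : V → V → Sch → H}

/-- bounds that are bilinear in the vectors and of finite order in the test function -/
def Adm (Φ : V → V → Sch → H) : Prop :=
  ∃ (m : ℕ) (C : ℝ), 0 ≤ C ∧ ∀ h k f, ‖Φ h k f‖ ≤ C * ‖h‖ * ‖k‖ * ST.sn V ℂ m f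

lemma Adm.of_le {H' : Type*} [NormedAddCommGroup H'] {Ψ : V → V → Sch → H'} (h : Adm Φ)
    (e : ∀ h k f, ‖Ψ h k f‖ ≤ ‖Φ h k f‖) : Adm Ψ :=
  let ⟨m, C, hC, hb⟩ := h
  ⟨m, C, hC, fun h k f => (e h k f).trans (hb h k f)⟩

lemma Adm.addn {H' : Type*} [NormedAddCommGroup H'] {Ψ : V → V → Sch → H'} (h : Adm Φ)
    (h' : Adm Ψ) : Adm fun a b f => ‖Φ a b f‖ + ‖Ψ a b f‖ := by
  obtain ⟨m, C, hC, hb⟩ := h
  obtain ⟨m', C', hC', hb'⟩ := h'
  refine ⟨max m m', C + C', by positivity, fun a b f => ?_⟩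
  have h1 := mul_le_mul_of_nonneg_left (ST.sn_mono (le_max_left m m') f)
    (show 0 ≤ C * ‖a‖ * ‖b‖ by positivity)
  have h2 := mul_le_mul_of_nonneg_left (ST.sn_mono (le_max_right m m') f)
    (show 0 ≤ C' * ‖a‖ * ‖b‖ by positivity)
  rw [Real.norm_of_nonneg (by positivity)]
  linarith [hb a b f, hb' a b f]

lemma Adm.sub (h : Adm Φ) (h' : Adm Ψ) : Adm fun a b f => Φ a b f - Ψ a b f :=
  (h.addn h').of_le fun _ _ _ => (norm_sub_le _ _).trans (le_abs_self _)

lemma Adm.add (h : Adm Φ) (h' : Adm Ψ) : Adm fun a b f => Φ a b f + Ψ a b f :=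
  (h.addn h').of_le fun _ _ _ => (norm_add_le _ _).trans (le_abs_self _)

lemma Adm.comp (h : Adm Φ) (L L' : V →L[ℝ] V) (A : Sch →L[ℝ] Sch) :
    Adm fun a b f => Φ (L a) (L' b) (A f) := by
  obtain ⟨m, C, hC, hb⟩ := h
  obtain ⟨C', m', hC', hA⟩ := ST.clm_sn' A m
  refine ⟨m', C * ‖L‖ * ‖L'‖ * C', by positivity, fun a b f => (hb _ _ _).trans ?_⟩
  calc _ ≤ C * (‖L‖ * ‖a‖) * (‖L'‖ * ‖b‖) * (C' * ST.sn V ℂ m' f) := by
        gcongr
        exacts [L.le_opNorm a, L'.le_opNorm b, hA f]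
    _ = _ := by ring

variable [NormedSpace ℂ H]

/-- the action of the boost generator -/
def nx (Φ : V → V → Sch → H) (h k : V) (f : Sch) : H :=
  I • (Φ h k (BS f) - Φ (βL h) k f - Φ h (βL k) f)

lemma Adm.nx (h : Adm Φ) : Adm (nx Φ) :=
  (((h.comp 1 1 (BS.restrictScalars ℝ)).sub (h.comp βL 1 1)).sub (h.comp 1 βL 1)).of_le
    fun _ _ _ => by
      rw [KDa.nx, norm_smul, norm_I, one_mul]
      exact le_rfl

end adm

variable {D : Type*} [NormedAddCommGroup D] [InnerProductSpace ℂ D] {c : Ctx D}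

/-- the components of `T` on the vacuum -/
def t1 (c : Ctx D) (m n : Ix) : Sch →L[ℂ] Completion D where
  toFun f := (c.T m n (ev f) c.Q.vac : D)
  map_add' f g := by
    have := c.Q.lin _ (ev f) (ev g) 1 c.Q.vac (c.Q.bose_fld _ (c.hT.bose m n)) ⟨f, rfl⟩ ⟨g, rfl⟩
    simp only [one_mul, one_smul] at this
    rw [← Completion.coe_add, ← this]
    rfl
  map_smul' a f := by
    have h := fun g : Sch => c.Q.lin _ (ev 0) (ev g) a c.Q.vac (c.Q.bose_fld _ (c.hT.bose m n))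
      ⟨0, rfl⟩ ⟨g, rfl⟩
    have h0 := c.Q.lin _ (ev 0) (ev 0) 1 c.Q.vac (c.Q.bose_fld _ (c.hT.bose m n)) ⟨0, rfl⟩ ⟨0, rfl⟩
    have e0 : (fun x => ev 0 x + 1 * ev 0 x) = ev 0 := by ext; simp [ev]
    have e1 : (fun x => ev 0 x + a * ev f x) = ev (a • f) := by ext; simp [ev]
    rw [e0, one_smul, left_eq_add] at h0
    rw [RingHom.id_apply, ← Completion.coe_smul, ← e1, h, h0, zero_add]
  cont := (Completion.continuous_coe D).comp (c.Q.cont _ _ (c.Q.bose_fld _ (c.hT.bose m n)))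

/-- `T(h, k)(f) Ω` -/
def tau (c : Ctx D) (h k : V) : Sch →L[ℂ] Completion D :=
  ∑ m, ∑ n, ((eta m * h m * (eta n * k n) : ℝ) : ℂ) • t1 c m n

lemma tau_apply (h k : V) (f : Sch) : tau c h k f = c.Tv (hk h k (ev f)) := by
  rw [Ctx.Tv, Ctx.Tf, ← Completion.coe_toComplL (𝕜 := ℂ)]
  simp only [tau, map_sum, ContinuousLinearMap.sum_apply, ContinuousLinearMap.smul_apply,
    ← map_smul]
  rfl

lemma adm_tau (c : Ctx D) : Adm fun h k f => tau c h k f := by
  choose C N hC hb using fun m n => ST.clm_sn_c (t1 c m n)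
  refine ⟨Finset.univ.sup fun p : Ix × Ix => N p.1 p.2, ∑ m, ∑ n, C m n,
    Finset.sum_nonneg fun m _ => Finset.sum_nonneg fun n _ => hC m n, fun h k f => ?_⟩
  simp only [tau, ContinuousLinearMap.sum_apply, ContinuousLinearMap.smul_apply, Finset.sum_mul]
  refine norm_sum_le_of_le _ fun m _ => norm_sum_le_of_le _ fun n _ => ?_
  rw [norm_smul, Complex.norm_real, Real.norm_eq_abs, abs_mul, abs_mul, abs_mul, abs_eta, abs_eta,
    one_mul, one_mul]
  have h1 := ST.sn_mono (Finset.le_sup (f := fun p : Ix × Ix => N p.1 p.2)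
    (Finset.mem_univ (m, n))) f
  have := hC m n
  calc _ ≤ ‖h‖ * ‖k‖ * (C m n * _) := by
        gcongr
        exacts [norm_le_pi_norm h m, norm_le_pi_norm k n,
          (hb m n f).trans (mul_le_mul_of_nonneg_left h1 this)]
    _ = _ := by ring

lemma gn_tau (G : GEN c) (h k : V) (f : Sch) :
    Gn (Bo c.Q) (tau c h k f) (nx (fun h k f => tau c h k f) h k f) := by
  simp only [nx, tau_apply, ev_BS, βL_apply]
  exact G.bo h k _ ⟨f, rfl⟩

lemma gn_nx {Φ Ψ : V → V → Sch → Completion D} (hΦ : ∀ h k f, Gn (Bo c.Q) (Φ h k f) (Ψ h k f))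
    (h k : V) (f : Sch) : Gn (Bo c.Q) (nx Φ h k f) (nx Ψ h k f) :=
  gn_smul I (gn_sub (gn_sub (hΦ _ _ _) (hΦ _ _ _)) (hΦ _ _ _))

lemma pr_afs {M : VonNeumannAlgebra (Completion D)} {X X' : D → D} (h : T.Afs M X X') :
    Pr M c.Om (X c.Q.vac : D) (X' c.Q.vac : D) := fun Z hZ => by
  rw [ContinuousLinearMap.star_eq_adjoint, ContinuousLinearMap.adjoint_inner_left]
  exact (h.2 Z hZ _ _).symm

lemma pr_tau (g : GRP c) {O : Set V} (h k : V) {f : Sch} (h1 : HasCompactSupport f)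
    (h2 : tsupport f ⊆ O) : Pr (c.N O) c.Om (tau c h k f) (tau c h k (barL f)) := by
  have := pr_afs (c := c) (g.afft O (hk h k (ev f)) fun m n =>
    ⟨⟨((eta m * h m * (eta n * k n) : ℝ) : ℂ) • f, rfl⟩, h1.mul_left, (tsupport_mul_subset_right).trans h2⟩)
  have e : (fun m n => bar (hk h k (ev f) m n)) = hk h k (ev (barL f)) := by
    funext m n x
    simp [bar, hk, ev_barL]
  rw [e] at this
  rw [tau_apply, tau_apply]
  exact this

/-- the graph of `(K, K ^ 2)` -/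
def gr2 (c : Ctx D) : AddSubmonoid (Completion D × Completion D × Completion D) where
  carrier := {p | Gn c.SK p.1 p.2.1 ∧ Gn c.SK p.2.1 p.2.2}
  add_mem' h h' := ⟨gn_add h.1 h'.1, gn_add h.2 h'.2⟩
  zero_mem' := ⟨gn_zero, gn_zero⟩

lemma gr2_closed (g : GRP c) : IsClosed (gr2 c : Set (Completion D × Completion D × Completion D)) :=
  ((ugS g).closed.preimage (f := fun p : Completion D × Completion D × Completion D =>
    (p.1, p.2.1)) (by fun_prop)).inter ((ugS g).closed.preimage continuous_snd)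

/-- compact supports in a cut cone -/
theorem two_loc (g : GRP c) (G : GEN c) {r : ℝ} (hr : 0 < r) : ∃ (m : ℕ) (C : ℝ), 0 ≤ C ∧
    ∀ h k (f : Sch), HasCompactSupport f → tsupport f ⊆ Rc r 0 →
      ∃ y, (tau c h k f, y) ∈ gr2 c ∧ ‖y‖ ≤ C * ‖h‖ * ‖k‖ * ST.sn V ℂ m f := by
  obtain ⟨C, hC, hb⟩ := kd_two g hr
  have a0 := adm_tau c
  obtain ⟨m, C', hC', hb'⟩ := (((a0.addn (a0.comp 1 1 barL)).addn a0.nx).addn
    (a0.nx.comp 1 1 barL)).addn a0.nx.nx
  refine ⟨m, C * C', by positivity, fun h k f h1 h2 => ?_⟩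
  obtain ⟨d1, d2, b1, b2⟩ := hb _ _ _ _ _ (pr_tau g h k h1 h2) (gn_tau G h k f)
    (gn_tau G h k (barL f)) (gn_nx (gn_tau G) h k f)
  refine ⟨(_, _), ⟨d1.gn', d2.gn'⟩, ?_⟩
  have b3 := hb' h k f
  simp only [Real.norm_eq_abs, ContinuousLinearMap.one_apply] at b3
  rw [abs_of_nonneg (by positivity), abs_of_nonneg (by positivity), abs_of_nonneg (by positivity),
    abs_of_nonneg (by positivity)] at b3
  have b4 := mul_le_mul_of_nonneg_left b3 hC
  rw [Prod.norm_def, max_le_iff]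
  exact ⟨(b1.trans b4).trans_eq (by ring), (b2.trans b4).trans_eq (by ring)⟩

end Vale.Agent.P352X.KDa

end
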