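import Vale.Agent.P352X.R.Br
import Vale.Agent.P352X.TR
import Vale.Agent.P352.BW.Dom2
import Mathlib.Analysis.Calculus.UniformLimitsDeriv

/-!
# P352X, row KD: generators and pairs, abstract part
-/

set_option linter.all false

noncomputable section

open Filter Topology Complex
open scoped BoundedContinuousFunction

namespace Vale.Agent.P352X.KDa

open Vale.Agent.P352 Vale.Agent.P352.BW
open Vale.Agent.P132 (ModData)

/-- the closed graph theorem for relations -/
theorem cg {E F : Type*} [NormedAddCommGroup E] [NormedSpace ℝ E] [CompleteSpace E]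
    [NormedAddCommGroup F] [NormedSpace ℝ F] [CompleteSpace F] (G : Submodule ℝ E)
    (R : Submodule ℝ (E × F)) (hG : IsClosed (G : Set E)) (hR : IsClosed (R : Set (E × F)))
    (h : ∀ x ∈ G, ∃ y, (x, y) ∈ R) :
    ∃ C : ℝ, 0 ≤ C ∧ ∀ x ∈ G, ∃ y, (x, y) ∈ R ∧ ‖y‖ ≤ C * ‖x‖ := by
  let R' : Submodule ℝ (E × F) := R ⊓ G.comap (LinearMap.fst ℝ E F)
  have hR' : IsClosed (R' : Set (E × F)) := hR.inter (hG.preimage continuous_fst)
  haveI : CompleteSpace R' := hR'.completeSpace_coe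
  haveI : CompleteSpace G := hG.completeSpace_coe
  let f : R' →L[ℝ] G :=
    ((ContinuousLinearMap.fst ℝ E F).comp R'.subtypeL).codRestrict G fun p => p.2.2
  have hf : Function.Surjective f := by
    rintro ⟨x, hx⟩
    obtain ⟨y, hy⟩ := h x hx
    exact ⟨⟨(x, y), hy, hx⟩, rfl⟩
  obtain ⟨C, hC, hb⟩ := f.exists_preimage_norm_le hf
  refine ⟨C, hC.le, fun x hx => ?_⟩
  obtain ⟨⟨⟨x', y⟩, hp⟩, h1, h2⟩ := hb ⟨x, hx⟩
  have e : x' = x := congrArg Subtype.val h1
  subst e
  exact ⟨y, hp.1, (norm_snd_le (x', y)).trans h2⟩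

variable {H : Type*} [NormedAddCommGroup H] [InnerProductSpace ℂ H] [CompleteSpace H]

/-- strongly continuous unitary groups -/
structure UG (W : ℝ → H →L[ℂ] H) : Prop where
  zero : W 0 = 1
  add : ∀ s t, W (s + t) = W s * W t
  nrm : ∀ t z, ‖W t z‖ = ‖z‖
  cont : ∀ z, Continuous fun t => W t z

section gn

variable {W : ℝ → H →L[ℂ] H} {ψ ψ' k k' : H}

lemma gn_add (h : Gn W ψ k) (h' : Gn W ψ' k') : Gn W (ψ + ψ') (k + k') := by
  have := HasDerivAt.fun_add h h'
  simpa only [Gn, map_add, smul_add] using this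

lemma gn_smul (a : ℂ) (h : Gn W ψ k) : Gn W (a • ψ) (a • k) := by
  have := HasDerivAt.fun_const_smul a h
  rw [smul_comm] at this
  simpa only [Gn, map_smul] using this

lemma gn_rsmul (a : ℝ) (h : Gn W ψ k) : Gn W (a • ψ) (a • k) := by
  simpa only [Complex.coe_smul] using gn_smul (a : ℂ) h

lemma gn_zero : Gn W 0 0 := by
  simpa only [Gn, map_zero, smul_zero] using hasDerivAt_const (0 : ℝ) (0 : H)

lemma gn_sub (h : Gn W ψ k) (h' : Gn W ψ' k') : Gn W (ψ - ψ') (k - k') := by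
  have := gn_add h (gn_smul (-1) h')
  simpa only [neg_smul, one_smul, ← sub_eq_add_neg] using this

lemma gn_comm (A : H →L[ℂ] H) (hA : ∀ t, A * W t = W t * A) (h : Gn W ψ k) :
    Gn W (A ψ) (A k) := by
  have h1 := (A.restrictScalars ℝ).hasFDerivAt.comp_hasDerivAt (0 : ℝ) h
  have e : (fun t => W t (A ψ)) = (A.restrictScalars ℝ) ∘ fun t => W t ψ := by
    funext t
    exact (congrArg (fun B : H →L[ℂ] H => B ψ) (hA t)).symm
  rw [Gn, e, ← map_smul]
  exact h1

lemma UG.at (hW : UG W) (h : Gn W ψ k) (t : ℝ) :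
    HasDerivAt (fun s => W s ψ) (I • W t k) t := by
  have h1 := ((W t).restrictScalars ℝ).hasFDerivAt.comp_hasDerivAt (0 : ℝ) h
  have h2 : HasDerivAt (fun s : ℝ => s - t) 1 t := (hasDerivAt_id t).sub_const t
  have h3 := HasDerivAt.scomp_of_eq (𝕜 := ℝ) (𝕜' := ℝ) t h1 h2 (by simp)
  rw [one_smul] at h3
  have e : (fun s => W s ψ) =
      (((W t).restrictScalars ℝ) ∘ fun t => W t ψ) ∘ fun s : ℝ => s - t := by
    funext s
    show W s ψ = (W t * W (s - t)) ψ
    rw [← hW.add, add_sub_cancel]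
  rw [e, ← map_smul]
  exact h3

lemma UG.gn (hW : UG W) (h : Gn W ψ k) (t : ℝ) : Gn W (W t ψ) (W t k) :=
  gn_comm (W t) (fun s => by rw [← hW.add, ← hW.add, add_comm]) h

/-- generators are closed -/
theorem UG.lim (hW : UG W) {ι : Type*} {l : Filter ι} [l.NeBot] {x y : ι → H}
    (h : ∀ᶠ i in l, Gn W (x i) (y i)) (hx : Tendsto x l (𝓝 ψ)) (hy : Tendsto y l (𝓝 k)) :
    Gn W ψ k := by
  have := hasDerivAt_of_tendstoUniformly (l := l) (f := fun i s => W s (x i))
    (f' := fun i s => I • W s (y i)) (g := fun s => W s ψ) (g' := fun s => I • W s k) ?_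
    (h.mono fun i hi s => hW.at hi s) (fun s => ((W s).continuous.tendsto ψ).comp hx) 0
  · simpa only [Gn, hW.zero, ContinuousLinearMap.one_apply] using this
  · rw [Metric.tendstoUniformly_iff]
    intro ε hε
    filter_upwards [Metric.tendsto_nhds.1 hy ε hε] with i hi s
    rw [dist_eq_norm, ← smul_sub, ← map_sub, norm_smul, norm_I, one_mul, hW.nrm, ← dist_eq_norm,
      dist_comm]
    exact hi

theorem UG.closed (hW : UG W) : IsClosed {p : H × H | Gn W p.1 p.2} := by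
  refine IsSeqClosed.isClosed fun u p hu hp => ?_
  exact hW.lim (Eventually.of_forall hu) ((continuous_fst.tendsto p).comp hp)
    ((continuous_snd.tendsto p).comp hp)

lemma UG.neg_apply (hW : UG W) (t : ℝ) (z : H) : W t (W (-t) z) = z := by
  show (W t * W (-t)) z = z
  rw [← hW.add, add_neg_cancel, hW.zero]
  rfl

/-- the difference quotients of the orbit -/
lemma gn_slope (hW : UG W) (h : Gn W ψ k) :
    Tendsto (fun t : ℝ => t⁻¹ • (W t ψ - ψ)) (𝓝[≠] 0) (𝓝 (I • k)) := by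
  have := h.tendsto_slope_zero
  simpa only [zero_add, hW.zero, ContinuousLinearMap.one_apply] using this

end gn

section pr

variable {M M' : VonNeumannAlgebra H} {ξ ψ ψ' φ φ' : H}

lemma pr_symm (h : Pr M ξ ψ ψ') : Pr M ξ ψ' ψ := by
  intro Z hZ
  have := h (star Z) (star_mem hZ)
  rw [star_star] at this
  rw [← inner_conj_symm, ← this, inner_conj_symm]

lemma pr_mono (hM : ∀ X ∈ M, X ∈ M') (h : Pr M ξ ψ ψ') : Pr M' ξ ψ ψ' := by
  intro Z hZ
  refine h Z ?_
  rw [VonNeumannAlgebra.mem_commutant_iff] at hZ ⊢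
  exact fun X hX => hZ X (hM X hX)

lemma pr_add (h : Pr M ξ ψ ψ') (h' : Pr M ξ φ φ') : Pr M ξ (ψ + φ) (ψ' + φ') := fun Z hZ => by
  rw [inner_add_right, inner_add_left, h Z hZ, h' Z hZ]

lemma pr_smul (a : ℝ) (h : Pr M ξ ψ ψ') : Pr M ξ (a • ψ) (a • ψ') := fun Z hZ => by
  rw [← Complex.coe_smul, ← Complex.coe_smul, inner_smul_right, inner_smul_left, h Z hZ,
    Complex.conj_ofReal]

lemma pr_csmul (a : ℂ) (h : Pr M ξ ψ ψ') : Pr M ξ (a • ψ) (star a • ψ') := fun Z hZ => by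
  rw [inner_smul_right, inner_smul_left, h Z hZ]
  simp

lemma pr_zero : Pr M ξ 0 0 := fun Z _ => by simp

lemma pr_sub (h : Pr M ξ ψ ψ') (h' : Pr M ξ φ φ') : Pr M ξ (ψ - φ) (ψ' - φ') := fun Z hZ => by
  rw [inner_sub_right, inner_sub_left, h Z hZ, h' Z hZ]

lemma pr_lim {ι : Type*} {l : Filter ι} [l.NeBot] {x y : ι → H} (h : ∀ᶠ i in l, Pr M ξ (x i) (y i))
    (hx : Tendsto x l (𝓝 ψ)) (hy : Tendsto y l (𝓝 ψ')) : Pr M ξ ψ ψ' := fun Z hZ =>
  tendsto_nhds_unique_of_eventuallyEq (tendsto_const_nhds.inner hx) (hy.inner tendsto_const_nhds)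
    (h.mono fun i hi => hi Z hZ)

lemma pr_closed : IsClosed {p : H × H | Pr M ξ p.1 p.2} := by
  refine IsSeqClosed.isClosed fun u p hu hp => ?_
  exact pr_lim (Eventually.of_forall hu) ((continuous_fst.tendsto p).comp hp)
    ((continuous_snd.tendsto p).comp hp)

/-- pairs are moved by unitaries that fix the vector -/
lemma pr_map {u : H →L[ℂ] H} (hu : u ∈ unitary (H →L[ℂ] H)) (hξ : u ξ = ξ)
    (hM : ∀ X ∈ M, u * X * star u ∈ M') (h : Pr M ξ ψ ψ') : Pr M' ξ (u ψ) (u ψ') := by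
  intro Z hZ
  have h1 : star u * u = 1 := hu.1
  have h2 : star u * Z * u ∈ M.commutant := by
    rw [VonNeumannAlgebra.mem_commutant_iff] at hZ ⊢
    intro X hX
    have h3 := hZ _ (hM X hX)
    calc X * (star u * Z * u) = (star u * u) * X * (star u * Z * u) := by rw [h1, one_mul]
      _ = star u * (u * X * star u * Z) * u := by simp only [mul_assoc]
      _ = star u * (Z * (u * X * star u)) * u := by rw [h3]
      _ = star u * Z * u * X * (star u * u) := by simp only [mul_assoc]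
      _ = _ := by rw [h1, mul_one]
  have h4 := h _ h2
  simp only [star_mul, star_star, ContinuousLinearMap.mul_apply, hξ] at h4
  rw [ContinuousLinearMap.star_eq_adjoint u, ContinuousLinearMap.adjoint_inner_left,
    ContinuousLinearMap.adjoint_inner_right] at h4
  exact h4

/-- derivatives of curves of pairs -/
lemma pr_der {x y : ℝ → H} {x' y' : H} (h : ∀ᶠ t in 𝓝 (0 : ℝ), Pr M ξ (x t) (y t))
    (hx : HasDerivAt x x' 0) (hy : HasDerivAt y y' 0) : Pr M ξ x' y' := by
  refine pr_lim ?_ hx.tendsto_slope_zero hy.tendsto_slope_zero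
  filter_upwards [h.filter_mono nhdsWithin_le_nhds] with t ht
  rw [zero_add]
  exact pr_smul _ (pr_sub ht h.self_of_nhds)

/-- pairs are limits of `(Z ξ, Z* ξ)` -/
theorem pr_trunc (hc : Dense {ζ : H | ∃ a ∈ M.commutant, a ξ = ζ}) (h : Pr M ξ ψ ψ') :
    ∃ Z : ℕ → H →L[ℂ] H, (∀ n, Z n ∈ M) ∧ Tendsto (fun n => Z n ξ) atTop (𝓝 ψ) ∧
      Tendsto (fun n => star (Z n) ξ) atTop (𝓝 ψ') := by
  obtain ⟨Z, h1, h2, h3, -⟩ := TR.trunc M (D := M.commutant) (fun v => v.1 ξ) (fun v => v.1 ψ)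
    (fun v => v.1 ψ') (hc.mono (by rintro ζ ⟨a, ha, e⟩; exact ⟨⟨a, ha⟩, e⟩)) fun Y hY v w => by
      have h4 := h (star w.1 * Y * v.1) (mul_mem (mul_mem (star_mem w.2) hY) v.2)
      simp only [star_mul, star_star, ContinuousLinearMap.mul_apply] at h4
      rw [ContinuousLinearMap.star_eq_adjoint w.1, ContinuousLinearMap.adjoint_inner_right,
        ContinuousLinearMap.star_eq_adjoint v.1, ContinuousLinearMap.adjoint_inner_left,
        ContinuousLinearMap.star_eq_adjoint Y, ContinuousLinearMap.adjoint_inner_left] at h4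
      exact h4.symm
  exact ⟨Z, h1, h2 ⟨1, one_mem _⟩, h3 ⟨1, one_mem _⟩⟩

/-- pairs are in the graph of the Tomita operator -/
theorem pr_kms (E : ModData M ξ) (h : Pr M ξ ψ ψ') (F G : ℝ →ᵇ ℂ)
    (hF : ∀ t : ℝ, F t = Real.exp (t / 2) * G t) : E.Th G (E.J ψ') = E.Th F ψ := by
  obtain ⟨Z, h1, h2, h3⟩ := pr_trunc E.cyc' h
  exact tendsto_nhds_unique_of_eventuallyEq
    ((((E.Th G).continuous.comp E.J.continuous).tendsto ψ').comp h3)
    (((E.Th F).continuous.tendsto ψ).comp h2)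
    (Eventually.of_forall fun n => E.kms _ (h1 n) F G hF)

end pr

end Vale.Agent.P352X.KDa

end
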